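import Vale.Agent.P154.AF4.Nonlin
import Vale.Agent.P154.Mult

/-!
# Four children: from the one-vector inequality to the family inequality

The majorant is a square over a positive affine function, so its value at the mean is the value of
one of its tangents, and a tangent bound for each vector gives the bound for the family.
-/

noncomputable section

namespace Vale.P154.AF4

open Finset

/-- The three exponent vectors. -/
def expo (j i : Fin 3) : ℝ :=
  (![![2, 2, 2], ![3, 2, 1], ![0, 2, 4]] : Fin 3 → Fin 3 → ℕ) j i / 6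

/-- The coefficients. -/
def coef : Fin 3 → ℝ := ![-708 / 100, 544 / 100, 464 / 100]

theorem expo_ok (j : Fin 3) : Expo (expo j) := by
  refine ⟨fun i => by unfold expo; positivity, ?_⟩
  fin_cases j <;> simp [expo, Fin.sum_univ_three] <;> norm_num

/-- `4 (1 - hel)` at `-y / 2`. -/
def xx (j : Fin 3) (y : Fin 3 → ℝ) : ℝ := 4 * (1 - hel (expo j) fun i => -(1 / 2) * y i)

/-- The one-vector facts. -/
def Pointwise (η : ℝ) : Prop :=
  ∀ y : Fin 3 → ℝ, Simp y → 0 ≤ xx 0 y ∧ 9 / 10 * xx 0 y ≤ xx 1 y ∧ xx 1 y ≤ xx 0 y ∧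
    9 / 20 * xx 0 y ≤ xx 2 y ∧ xx 2 y ≤ 7 / 10 * xx 0 y ∧
    -708 / 100 * xx 0 y + 544 / 100 * xx 1 y + 464 / 100 * xx 2 y
      + 3 / 4 * ((765 * xx 0 y - 540 * xx 1 y - 325 * xx 2 y) / 100) ^ 2 / (1 + 4 * xx 0 y)
      + η * chi y ^ 2 ≤ ∑ j, coef j * (1 - hel (expo j) y)

/-- The inequality for a family whose geometric-mean functional is close to one. -/
theorem cert_of_pointwise {η : ℝ} (hη : 0 ≤ η) (hP : Pointwise η) (ι : Type) (w : ι → ℝ)
    (y : ι → Fin 3 → ℝ) (hw : ∀ x, 0 ≤ w x) (hs : Summable w) (h1 : ∑' x, w x = 1)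
    (hy : ∀ x, Simp (y x))
    (hθ : 1 - 3 / 160 ≤ ∑' x, w x * hel (expo 0) (fun i => -(1 / 2) * y x i)) :
    ∑ j, coef j * (1 - (∑' x, w x * hel (expo j) (fun i => -(1 / 2) * y x i)) ^ 4)
        + η * (∑' x, w x * chi (y x)) ^ 2
      ≤ ∑ j, coef j * (1 - ∑' x, w x * hel (expo j) (y x)) := by
  have bd : ∀ f : ι → ℝ, (∃ C, ∀ x, |f x| ≤ C) → Summable fun x => w x * f x := by
    rintro f ⟨C, hC⟩
    refine Summable.of_norm_bounded (hs.mul_right C) fun x => ?_
    rw [Real.norm_eq_abs, abs_mul, abs_of_nonneg (hw x)]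
    exact mul_le_mul_of_nonneg_left (hC x) (hw x)
  have b1 : ∀ j, ∀ z : ι → Fin 3 → ℝ, (∀ x, Simp (z x)) →
      Summable fun x => w x * hel (expo j) (z x) := fun j z hz =>
    bd _ ⟨1, fun x => abs_le.2 ⟨by
      linarith [hvec_nonneg (expo j) (v := fun i => 1 + z x i) fun i => by linarith [(hz x).1 i],
        show hel (expo j) (z x) = hvec (expo j) fun i => 1 + z x i from rfl],
      hel_le_one (expo_ok j) (hz x)⟩⟩
  have hys : ∀ x, Simp (fun i => -(1 / 2) * y x i) := fun x =>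
    lam_smul_simp (by norm_num) (by norm_num) (by norm_num) (hy x)
  have hchi : ∀ x, 0 ≤ chi (y x) ∧ chi (y x) ≤ 9 := fun x => by
    have h := chi_le_sq (q := 3) (by norm_num) (hy x)
    norm_num at h
    exact ⟨by unfold chi; positivity, h⟩
  have hw1 : HasSum w 1 := h1 ▸ hs.hasSum
  have bp : Summable fun x => w x * chi (y x) ^ 2 := bd _ ⟨81, fun x => by
    rw [abs_of_nonneg (sq_nonneg _)]; nlinarith [(hchi x).1, (hchi x).2]⟩
  set X : Fin 3 → ℝ := fun j => ∑' x, w x * xx j (y x) with hX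
  have sX : ∀ j, HasSum (fun x => w x * xx j (y x)) (X j) := fun j =>
    (((hs.sub (b1 j _ hys)).mul_left 4).congr fun x => by simp only [xx]; ring).hasSum
  have mH : ∀ j, ∑' x, w x * hel (expo j) (fun i => -(1 / 2) * y x i) = 1 - X j / 4 := fun j => by
    refine HasSum.tsum_eq ?_
    refine (hw1.sub ((sX j).div_const 4)).congr_fun fun x => ?_
    simp only [xx]; ring
  have sG : ∀ j, HasSum (fun x => w x * (1 - hel (expo j) (y x)))
      (1 - ∑' x, w x * hel (expo j) (y x)) := fun j =>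
    (hw1.sub (b1 j _ hy).hasSum).congr_fun fun x => by ring
  rw [mH 0] at hθ
  simp only [mH]
  have mono : ∀ {f g : ι → ℝ} {A B : ℝ}, (∀ x, f x ≤ g x) → HasSum (fun x => w x * f x) A →
      HasSum (fun x => w x * g x) B → A ≤ B := fun h hA hB =>
    hasSum_le (fun x => mul_le_mul_of_nonneg_left (h x) (hw x)) hA hB
  have sC : ∀ (a : ℝ) j, HasSum (fun x => w x * (a * xx j (y x))) (a * X j) := fun a j =>
    ((sX j).mul_left a).congr_fun fun x => by ring
  have hp := fun x => hP (y x) (hy x)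
  have hX0 : 0 ≤ X 0 := (sX 0).nonneg fun x => mul_nonneg (hw x) (hp x).1
  have hr0 : 9 / 10 * X 0 ≤ X 1 := mono (fun x => (hp x).2.1) (sC _ 0) (sX 1)
  have hr1 : X 1 ≤ X 0 := mono (fun x => (hp x).2.2.1) (sX 1) (sX 0)
  have hs0 : 9 / 20 * X 0 ≤ X 2 := mono (fun x => (hp x).2.2.2.1) (sC _ 0) (sX 2)
  have hs1 : X 2 ≤ 7 / 10 * X 0 := mono (fun x => (hp x).2.2.2.2.1) (sX 2) (sC _ 0)
  have hN := nonlin_le hX0 (by linarith) hr0 hr1 hs0 hs1
  -- a tangent of the majorant at the mean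
  set E := (765 * X 0 - 540 * X 1 - 325 * X 2) / 100 with hE
  set s := E / (1 + 4 * X 0) with hsd
  have hM : 3 / 4 * E ^ 2 / (1 + 4 * X 0) = 3 / 4 * (2 * s * E - s ^ 2 * (1 + 4 * X 0)) := by
    rw [hsd]; field_simp; ring
  have hpw : ∀ x, (-708 / 100 + 3 / 4 * (2 * s * (765 / 100) - s ^ 2 * 4)) * xx 0 (y x)
      + (544 / 100 + 3 / 4 * (2 * s * (-540 / 100))) * xx 1 (y x)
      + (464 / 100 + 3 / 4 * (2 * s * (-325 / 100))) * xx 2 (y x) - 3 / 4 * s ^ 2
      + η * chi (y x) ^ 2 ≤ ∑ j, coef j * (1 - hel (expo j) (y x)) := by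
    intro x
    obtain ⟨h0, -, -, -, -, hin⟩ := hp x
    set e := (765 * xx 0 (y x) - 540 * xx 1 (y x) - 325 * xx 2 (y x)) / 100 with he
    have htan : 2 * s * e - s ^ 2 * (1 + 4 * xx 0 (y x)) ≤ e ^ 2 / (1 + 4 * xx 0 (y x)) := by
      rw [le_div_iff₀ (by linarith)]
      nlinarith [sq_nonneg (e - s * (1 + 4 * xx 0 (y x)))]
    rw [mul_div_assoc] at hin
    simp only [he] at htan hin
    linarith
  have hR : HasSum (fun x => w x * ∑ j, coef j * (1 - hel (expo j) (y x)))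
      (∑ j, coef j * (1 - ∑' x, w x * hel (expo j) (y x))) :=
    (hasSum_sum fun j _ => (sG j).mul_left (coef j)).congr_fun fun x => by
      rw [Finset.mul_sum]; exact Finset.sum_congr rfl fun j _ => by ring
  have hL := (((((sC (-708 / 100 + 3 / 4 * (2 * s * (765 / 100) - s ^ 2 * 4)) 0).add
      (sC (544 / 100 + 3 / 4 * (2 * s * (-540 / 100))) 1)).add
      (sC (464 / 100 + 3 / 4 * (2 * s * (-325 / 100))) 2)).sub
      (hw1.mul_left (3 / 4 * s ^ 2))).add (bp.hasSum.mul_left η))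
  have hle := hasSum_le (fun x => by
    have := mul_le_mul_of_nonneg_left (hpw x) (hw x)
    linarith) hL hR
  have hJ := sq_tsum_le hw hs h1 (f := fun x => chi (y x)) (B := 9) fun x => by
    rw [abs_of_nonneg (hchi x).1]; exact (hchi x).2
  have hJ' := mul_le_mul_of_nonneg_left hJ hη
  have e4 : ∀ z : ℝ, (1 - z / 4) ^ 4 = 1 - (1 - (1 - z / 4) ^ 4) := fun z => by ring
  simp only [Fin.sum_univ_three, coef, Matrix.cons_val_zero, Matrix.cons_val_one,
    Matrix.cons_val] at hle ⊢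
  clear_value s X
  simp only [hE] at hM hN
  linarith

end Vale.P154.AF4
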