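import Vale.Agent.P154.AF4.Tri

/-!
# The forms for four children and their certificates
-/

noncomputable section

namespace Vale.P154.AF4

open AF.Hom

/-- Sum of sixth powers. -/
def sE : E := .add (.add (.pow .A 6) (.pow .B 6)) (.pow .G 6)
/-- A deviation. -/
def yE (v : E) : E := .sub (.mul (.C 3) (.pow v 6)) sE
/-- Nine times the sum of squares. -/
def pE : E := .add (.add (.pow (yE .A) 2) (.pow (yE .B) 2)) (.pow (yE .G) 2)
/-- Twenty-seven times the sum of cubes. -/
def tE : E := .add (.add (.pow (yE .A) 3) (.pow (yE .B) 3)) (.pow (yE .G) 3)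
/-- Six times the first functional. -/
def x1E : E := .sub (.mul (.C 2) sE) (.mul (.C 6) (.pow (.mul (.mul .A .B) .G) 2))
/-- Six times the second functional. -/
def x2E : E :=
  .sub (.mul (.C 2) sE) (.mul (.mul (.mul .A .B) .G) (.add (.add (.mul (.pow .A 2) (.add .B .G))
    (.mul (.pow .B 2) (.add .A .G))) (.mul (.pow .G 2) (.add .A .B))))
/-- Six times the third functional. -/
def x0E : E :=
  .sub (.mul (.C 2) sE) (.add (.add (.mul (.pow .A 2) (.add (.pow .B 4) (.pow .G 4)))
    (.mul (.pow .B 2) (.add (.pow .A 4) (.pow .G 4)))) (.mul (.pow .G 2) (.add (.pow .A 4) (.pow .B 4))))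
/-- Six times a linear combination. -/
def lE (l1 l2 l0 : ℤ) : E :=
  .add (.add (.mul (.C l1) x1E) (.mul (.C l2) x2E)) (.mul (.C l0) x0E)
/-- The denominator of the bound, at the node. -/
def denV : E :=
  .add (.sub (.mul (.C 100) (.pow sE 3)) (.mul (.C 16) tE)) (.mul pE sE)
/-- The denominator of the bound, after one edge. -/
def denU : E :=
  .add (.add (.mul (.C 100) (.pow sE 3)) (.mul (.C 128) tE)) (.mul (.C 4) (.mul pE sE))
/-- The slack of the first denominator. -/
def dV : E := .sub denV (.mul (.C 5) (.pow sE 3))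
/-- The slack of the second denominator. -/
def dU : E := .sub denU (.mul (.C 5) (.pow sE 3))
/-- The Lyapunov function lies above the rational bound. -/
def fV : E :=
  .sub (.mul (.C 50) (.mul (.sub (.mul (.C 3) (.mul (lE (-708) 544 464) sE)) (.mul (.C 100) pE))
      (.mul sE denV)))
    (.add (.add (.mul (.C 27813) (.mul (.pow pE 2) (.pow sE 2)))
      (.mul (.C 13359) (.mul (.mul pE sE) tE)))
      (.add (.mul (.C (-4284)) (.pow pE 3)) (.mul (.C (-3075)) (.pow tE 2))))
/-- The recursion stays below the rational bound. -/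
def fU : E :=
  .add (.mul (.mul sE denU)
      (.sub (.mul (.C 200) (.mul (.sub (.mul (.C 100) pE)
          (.mul (.C 3) (.mul (lE (-708) 544 464) sE))) (.add sE (.mul (.C 8) x1E))))
        (.mul (.C 9) (.mul (.pow (lE 765 (-540) (-325)) 2) sE))))
    (.mul (.add sE (.mul (.C 8) x1E))
      (.add (.add (.mul (.C 444960) (.mul (.pow pE 2) (.pow sE 2)))
        (.mul (.C (-427488)) (.mul (.mul pE sE) tE)))
        (.add (.mul (.C (-274176)) (.pow pE 3)) (.mul (.C (-196800)) (.pow tE 2)))))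
/-- The slack near the corner `(3, 0, 0)`, with `A = 1`. -/
def fC : E :=
  .add
    (.add
    (.add
    (.add
    (.mul (.C 5554944000000000000000000000) (.pow .A 8))
    (.mul (.C 10342762349421678603264000000000) (.mul (.pow .A 7) (.pow .G 1))))
    (.add
    (.mul (.C (-24656824235428054875909980160000)) (.mul (.pow .A 6) (.pow .G 2)))
    (.mul (.C 21684290162191047636687118702080) (.mul (.pow .A 5) (.pow .G 3)))))
    (.add
    (.add
    (.mul (.C (-6744513248415926354549342060761)) (.mul (.pow .A 4) (.pow .G 4)))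
    (.mul (.C 5255082469676705129868672000000) (.mul (.pow .A 3) (.pow .G 5))))
    (.add
    (.mul (.C (-1638060969772360226192000000000)) (.mul (.pow .A 2) (.pow .G 6)))
    (.add
    (.mul (.C (-5041107532551168000000000000000)) (.mul (.pow .A 1) (.pow .G 7)))
    (.mul (.C (-1417756964416000000000000000000)) (.mul (.pow .A 0) (.pow .G 8)))))))
    (.add
    (.add
    (.add
    (.mul (.C (-4201253592624713728000000000000)) (.mul (.pow .A 6) (.pow .B 2)))
    (.mul (.C 5183046067021778994874941440000) (.mul (.mul (.pow .A 4) (.pow .B 2)) (.pow .G 2))))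
    (.add
    (.mul (.C (-4101255337484288000000000000000)) (.mul (.pow .A 5) (.pow .B 3)))
    (.add
    (.mul (.C 5059679183402925315850240000000) (.mul (.mul (.pow .A 3) (.pow .B 3)) (.pow .G 2)))
    (.mul (.C (-6327547785216000000000000000000)) (.mul (.pow .A 4) (.pow .B 4))))))
    (.add
    (.add
    (.mul (.C 7806234719948677447680000000000) (.mul (.mul (.pow .A 2) (.pow .B 4)) (.pow .G 2)))
    (.mul (.C (-2843353088000000000000000000000)) (.mul (.pow .A 3) (.pow .B 5))))
    (.add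
    (.mul (.C 3507817301432074240000000000000) (.mul (.mul (.pow .A 1) (.pow .B 5)) (.pow .G 2)))
    (.add
    (.mul (.C (-10096640000000000000000000000000)) (.mul (.pow .A 2) (.pow .B 6)))
    (.mul (.C 12456127460147200000000000000000) (.mul (.mul (.pow .A 0) (.pow .B 6)) (.pow .G 2)))))))

theorem fU_fan : Fan' fU :=
  ⟨⟨(leafK 42 900 (by decide +kernel) (by decide +kernel) :
      OnTri fU (pt 0 0) (pt 123 0) (pt 87 70)),
    (leafK 42 900 (by decide +kernel) (by decide +kernel) :
      OnTri fU (pt 0 0) (pt 87 70) (pt 52 160)),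
    (leafK 42 900 (by decide +kernel) (by decide +kernel) :
      OnTri fU (pt 0 0) (pt 52 160) (pt 21 300)),
    (splitPW (leafK 42 900 (by decide +kernel) (by decide +kernel)) (leafK 42 900 (by decide +kernel) (by decide +kernel)) :
      OnTri fU (pt 0 0) (pt 21 300) (pt 4 500)),
    (splitPQ (splitPW (leafK 42 900 (by decide +kernel) (by decide +kernel)) (leafK 42 900 (by decide +kernel) (by decide +kernel))) (leafK 42 900 (by decide +kernel) (by decide +kernel)) :
      OnTri fU (pt 0 0) (pt 4 500) (pt 1 640))⟩,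
    (splitPQ (splitPW (leafK 42 900 (by decide +kernel) (by decide +kernel)) (leafK 42 900 (by decide +kernel) (by decide +kernel))) (leafK 42 900 (by decide +kernel) (by decide +kernel)) :
      OnTri fU (pt 0 0) (pt 1 640) (pt 1 700)),
    (splitPQ (splitPW (leafK 42 900 (by decide +kernel) (by decide +kernel)) (leafK 42 900 (by decide +kernel) (by decide +kernel))) (leafK 42 900 (by decide +kernel) (by decide +kernel)) :
      OnTri fU (pt 0 0) (pt 1 700) (pt 0 700))⟩

theorem dU_fan : Fan' dU :=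
  ⟨⟨(leafK 18 450 (by decide +kernel) (by decide +kernel) :
      OnTri dU (pt 0 0) (pt 123 0) (pt 87 70)),
    (leafK 18 450 (by decide +kernel) (by decide +kernel) :
      OnTri dU (pt 0 0) (pt 87 70) (pt 52 160)),
    (leafK 18 450 (by decide +kernel) (by decide +kernel) :
      OnTri dU (pt 0 0) (pt 52 160) (pt 21 300)),
    (leafK 18 450 (by decide +kernel) (by decide +kernel) :
      OnTri dU (pt 0 0) (pt 21 300) (pt 4 500)),
    (leafK 18 450 (by decide +kernel) (by decide +kernel) :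
      OnTri dU (pt 0 0) (pt 4 500) (pt 1 640))⟩,
    (leafK 18 450 (by decide +kernel) (by decide +kernel) :
      OnTri dU (pt 0 0) (pt 1 640) (pt 1 700)),
    (leafK 18 450 (by decide +kernel) (by decide +kernel) :
      OnTri dU (pt 0 0) (pt 1 700) (pt 0 700))⟩

theorem x1_fan : Fan (lE 1 0 0) :=
  ⟨⟨(leafK 6 220 (by decide +kernel) (by decide +kernel) :
      OnTri (lE 1 0 0) (pt 0 0) (pt 123 0) (pt 87 70)),
    (leafK 6 220 (by decide +kernel) (by decide +kernel) :
      OnTri (lE 1 0 0) (pt 0 0) (pt 87 70) (pt 52 160)),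
    (leafK 6 220 (by decide +kernel) (by decide +kernel) :
      OnTri (lE 1 0 0) (pt 0 0) (pt 52 160) (pt 21 300)),
    (leafK 6 220 (by decide +kernel) (by decide +kernel) :
      OnTri (lE 1 0 0) (pt 0 0) (pt 21 300) (pt 4 500)),
    (leafK 6 220 (by decide +kernel) (by decide +kernel) :
      OnTri (lE 1 0 0) (pt 0 0) (pt 4 500) (pt 1 640))⟩,
    (leafK 6 220 (by decide +kernel) (by decide +kernel) :
      OnTri (lE 1 0 0) (pt 0 0) (pt 1 640) (pt 1 1000)),
    (leafK 6 220 (by decide +kernel) (by decide +kernel) :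
      OnTri (lE 1 0 0) (pt 0 0) (pt 1 1000) (pt 0 1000))⟩

theorem r0_fan : Fan (lE (-9) 10 0) :=
  ⟨⟨(leafK 6 220 (by decide +kernel) (by decide +kernel) :
      OnTri (lE (-9) 10 0) (pt 0 0) (pt 123 0) (pt 87 70)),
    (leafK 6 220 (by decide +kernel) (by decide +kernel) :
      OnTri (lE (-9) 10 0) (pt 0 0) (pt 87 70) (pt 52 160)),
    (leafK 6 220 (by decide +kernel) (by decide +kernel) :
      OnTri (lE (-9) 10 0) (pt 0 0) (pt 52 160) (pt 21 300)),
    (splitPW (leafK 6 220 (by decide +kernel) (by decide +kernel)) (leafK 6 220 (by decide +kernel) (by decide +kernel)) :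
      OnTri (lE (-9) 10 0) (pt 0 0) (pt 21 300) (pt 4 500)),
    (splitPW (splitPQ (leafK 6 220 (by decide +kernel) (by decide +kernel)) (leafK 6 220 (by decide +kernel) (by decide +kernel))) (splitPW (leafK 6 220 (by decide +kernel) (by decide +kernel)) (leafK 6 220 (by decide +kernel) (by decide +kernel))) :
      OnTri (lE (-9) 10 0) (pt 0 0) (pt 4 500) (pt 1 640))⟩,
    (splitPW (splitPQ (splitPW (leafK 6 220 (by decide +kernel) (by decide +kernel)) (leafK 6 220 (by decide +kernel) (by decide +kernel))) (splitPQ (leafK 6 220 (by decide +kernel) (by decide +kernel)) (leafK 6 220 (by decide +kernel) (by decide +kernel)))) (leafK 6 220 (by decide +kernel) (by decide +kernel)) :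
      OnTri (lE (-9) 10 0) (pt 0 0) (pt 1 640) (pt 1 1000)),
    (splitPQ (splitPW (splitPQ (splitPW (leafK 6 220 (by decide +kernel) (by decide +kernel)) (leafK 6 220 (by decide +kernel) (by decide +kernel))) (leafK 6 220 (by decide +kernel) (by decide +kernel))) (leafK 6 220 (by decide +kernel) (by decide +kernel))) (leafK 6 220 (by decide +kernel) (by decide +kernel)) :
      OnTri (lE (-9) 10 0) (pt 0 0) (pt 1 1000) (pt 0 1000))⟩

theorem r1_fan : Fan (lE 1 (-1) 0) :=
  ⟨⟨(leafK 6 220 (by decide +kernel) (by decide +kernel) :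
      OnTri (lE 1 (-1) 0) (pt 0 0) (pt 123 0) (pt 87 70)),
    (leafK 6 220 (by decide +kernel) (by decide +kernel) :
      OnTri (lE 1 (-1) 0) (pt 0 0) (pt 87 70) (pt 52 160)),
    (leafK 6 220 (by decide +kernel) (by decide +kernel) :
      OnTri (lE 1 (-1) 0) (pt 0 0) (pt 52 160) (pt 21 300)),
    (leafK 6 220 (by decide +kernel) (by decide +kernel) :
      OnTri (lE 1 (-1) 0) (pt 0 0) (pt 21 300) (pt 4 500)),
    (leafK 6 220 (by decide +kernel) (by decide +kernel) :
      OnTri (lE 1 (-1) 0) (pt 0 0) (pt 4 500) (pt 1 640))⟩,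
    (leafK 6 220 (by decide +kernel) (by decide +kernel) :
      OnTri (lE 1 (-1) 0) (pt 0 0) (pt 1 640) (pt 1 1000)),
    (leafK 6 220 (by decide +kernel) (by decide +kernel) :
      OnTri (lE 1 (-1) 0) (pt 0 0) (pt 1 1000) (pt 0 1000))⟩

theorem s0_fan : Fan (lE (-9) 0 20) :=
  ⟨⟨(leafK 6 220 (by decide +kernel) (by decide +kernel) :
      OnTri (lE (-9) 0 20) (pt 0 0) (pt 123 0) (pt 87 70)),
    (leafK 6 220 (by decide +kernel) (by decide +kernel) :
      OnTri (lE (-9) 0 20) (pt 0 0) (pt 87 70) (pt 52 160)),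
    (leafK 6 220 (by decide +kernel) (by decide +kernel) :
      OnTri (lE (-9) 0 20) (pt 0 0) (pt 52 160) (pt 21 300)),
    (leafK 6 220 (by decide +kernel) (by decide +kernel) :
      OnTri (lE (-9) 0 20) (pt 0 0) (pt 21 300) (pt 4 500)),
    (leafK 6 220 (by decide +kernel) (by decide +kernel) :
      OnTri (lE (-9) 0 20) (pt 0 0) (pt 4 500) (pt 1 640))⟩,
    (leafK 6 220 (by decide +kernel) (by decide +kernel) :
      OnTri (lE (-9) 0 20) (pt 0 0) (pt 1 640) (pt 1 1000)),
    (leafK 6 220 (by decide +kernel) (by decide +kernel) :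
      OnTri (lE (-9) 0 20) (pt 0 0) (pt 1 1000) (pt 0 1000))⟩

theorem s1_fan : Fan (lE 7 0 (-10)) :=
  ⟨⟨(leafK 6 220 (by decide +kernel) (by decide +kernel) :
      OnTri (lE 7 0 (-10)) (pt 0 0) (pt 123 0) (pt 87 70)),
    (leafK 6 220 (by decide +kernel) (by decide +kernel) :
      OnTri (lE 7 0 (-10)) (pt 0 0) (pt 87 70) (pt 52 160)),
    (leafK 6 220 (by decide +kernel) (by decide +kernel) :
      OnTri (lE 7 0 (-10)) (pt 0 0) (pt 52 160) (pt 21 300)),
    (leafK 6 220 (by decide +kernel) (by decide +kernel) :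
      OnTri (lE 7 0 (-10)) (pt 0 0) (pt 21 300) (pt 4 500)),
    (leafK 6 220 (by decide +kernel) (by decide +kernel) :
      OnTri (lE 7 0 (-10)) (pt 0 0) (pt 4 500) (pt 1 640))⟩,
    (leafK 6 220 (by decide +kernel) (by decide +kernel) :
      OnTri (lE 7 0 (-10)) (pt 0 0) (pt 1 640) (pt 1 1000)),
    (leafK 6 220 (by decide +kernel) (by decide +kernel) :
      OnTri (lE 7 0 (-10)) (pt 0 0) (pt 1 1000) (pt 0 1000))⟩

/-- The checks on the triangles, in one proof: one kernel computation at a time. -/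
theorem fV_tris :
    OnTri fV (10, 5, 5) (10, 10, 0) (10, 3, 0) ∧
    OnTri fV (10, 5, 5) (10, 3, 0) (10, 3, 3) ∧
    OnTri fV (2, 2, 1) (1, 1, 0) (2, 1, 1) ∧
    OnTri fV (3, 2, 2) (2, 2, 1) (2, 1, 1) ∧
    OnTri fV (3, 3, 2) (2, 2, 1) (3, 2, 2) ∧
    OnTri fV (1, 1, 1) (3, 3, 2) (3, 2, 2) :=
  ⟨leafK 36 500 (by decide +kernel) (by decide +kernel),
    leafK 36 500 (by decide +kernel) (by decide +kernel),
    splitPQ (leafK 36 500 (by decide +kernel) (by decide +kernel)) (leafK 36 500 (by decide +kernel) (by decide +kernel)),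
    leafK 36 500 (by decide +kernel) (by decide +kernel),
    leafK 36 500 (by decide +kernel) (by decide +kernel),
    leafK 36 500 (by decide +kernel) (by decide +kernel)⟩

theorem fV_t0 : OnTri fV (10, 5, 5) (10, 10, 0) (10, 3, 0) := fV_tris.1

theorem fV_t1 : OnTri fV (10, 5, 5) (10, 3, 0) (10, 3, 3) := fV_tris.2.1

theorem fV_t2 : OnTri fV (2, 2, 1) (1, 1, 0) (2, 1, 1) := fV_tris.2.2.1

theorem fV_t3 : OnTri fV (3, 2, 2) (2, 2, 1) (2, 1, 1) := fV_tris.2.2.2.1

theorem fV_t4 : OnTri fV (3, 3, 2) (2, 2, 1) (3, 2, 2) := fV_tris.2.2.2.2.1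

theorem fV_t5 : OnTri fV (1, 1, 1) (3, 3, 2) (3, 2, 2) := fV_tris.2.2.2.2.2

/-- The checks on the triangles, in one proof: one kernel computation at a time. -/
theorem dV_tris :
    OnTri dV (10, 5, 5) (10, 10, 0) (10, 3, 0) ∧
    OnTri dV (10, 5, 5) (10, 3, 0) (10, 3, 3) ∧
    OnTri dV (2, 2, 1) (1, 1, 0) (2, 1, 1) ∧
    OnTri dV (3, 2, 2) (2, 2, 1) (2, 1, 1) ∧
    OnTri dV (3, 3, 2) (2, 2, 1) (3, 2, 2) ∧
    OnTri dV (1, 1, 1) (3, 3, 2) (3, 2, 2) :=
  ⟨leafK 18 300 (by decide +kernel) (by decide +kernel),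
    leafK 18 300 (by decide +kernel) (by decide +kernel),
    leafK 18 300 (by decide +kernel) (by decide +kernel),
    leafK 18 300 (by decide +kernel) (by decide +kernel),
    leafK 18 300 (by decide +kernel) (by decide +kernel),
    leafK 18 300 (by decide +kernel) (by decide +kernel)⟩

theorem dV_t0 : OnTri dV (10, 5, 5) (10, 10, 0) (10, 3, 0) := dV_tris.1

theorem dV_t1 : OnTri dV (10, 5, 5) (10, 3, 0) (10, 3, 3) := dV_tris.2.1

theorem dV_t2 : OnTri dV (2, 2, 1) (1, 1, 0) (2, 1, 1) := dV_tris.2.2.1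

theorem dV_t3 : OnTri dV (3, 2, 2) (2, 2, 1) (2, 1, 1) := dV_tris.2.2.2.1

theorem dV_t4 : OnTri dV (3, 3, 2) (2, 2, 1) (3, 2, 2) := dV_tris.2.2.2.2.1

theorem dV_t5 : OnTri dV (1, 1, 1) (3, 3, 2) (3, 2, 2) := dV_tris.2.2.2.2.2

theorem fC_tri : OnTri fC (1, 0, 0) (100000, 37300, 33197) (100000, 37300, 37300) :=
  leafK 8 420 (by decide +kernel) (by decide +kernel)

end Vale.P154.AF4
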