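import Vale.Agent.P154.AF4.Main
import Vale.Agent.P154.Lattice.Data.All

/-!
# Four children at the critical antiferromagnetic point

For `q = 3`, the regular tree with four children and `lam = -1/2` (`d * lam ^ 2 = 1`) the average
magnetisation tends to zero.
-/

noncomputable section

namespace Vale.P154.AF4

open Filter Topology

/-- The regular tree with four children at `lam = -1/2`. -/
theorem aReg_four_critical : Tendsto (fun n => aReg 3 4 (-(1 / 2)) n) atTop (𝓝 0) :=
  aReg_four_of_small Lat.Data.hChan_eventually

end Vale.P154.AF4
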