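import Vale.Agent.P154.AF4.Pointwise
import Vale.Agent.P154.Lattice.Late
import Vale.Agent.P154.Lattice.Limit

/-!
# Four children at `lam = -1/2`: nonreconstruction from a late bound

If from some depth on the geometric-mean affinity after one edge is at least `1 - 3/160`, the
average magnetisation tends to zero.
-/

noncomputable section

namespace Vale.P154.AF4

open Filter Topology

theorem expo_zero : expo 0 = fun _ => 1 / 3 := by
  funext i
  fin_cases i <;> simp [expo] <;> norm_num

/-- A late bound on the geometric-mean affinity gives nonreconstruction. -/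
theorem aReg_four_of_small
    (h : ∃ n0, ∀ n, n0 ≤ n →
      1 - 3 / 160 ≤ hChan (q := 3) (fun _ => 1 / 3) (-(1 / 2)) n (regTree 4 n)) :
    Tendsto (fun n => aReg 3 4 (-(1 / 2)) n) atTop (𝓝 0) := by
  obtain ⟨n0, hn0⟩ := h
  have hl0 : -1 / (((3 : ℕ) : ℝ) - 1) ≤ -(1 / 2) := by norm_num
  refine aReg_zero_of_ev_late (q := 3) (by norm_num) hl0 (by norm_num) 4 coef expo expo_ok
    (η := 9 / 5000000) (by norm_num) (r := 1) n0
    (fun _ y => hel (expo 0) fun i => -(1 / 2) * y i) (fun _ => 1 - 3 / 160)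
    (fun _ y hy => hvec_nonneg _ fun i => by
      linarith [(lam_smul_simp (q := 3) (by norm_num) hl0 (by norm_num) hy).1 i])
    (fun n hn _ => ?_) fun ι w y hw hs h1 hy hθ => ?_
  · rw [← hChan_eq_ev (by norm_num) hl0 (by norm_num) (expo_ok 0), expo_zero]
    exact hn0 n hn
  · exact cert_of_pointwise (by norm_num) pointwise ι w y hw hs h1 hy (hθ 0)

/-- The interface to density evolution: one dominating experiment at one depth suffices. -/
theorem aReg_four_of_dominated {N : ℕ} {S : Type} [Fintype S] {M : S → Fin 3 → ℝ}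
    (hdom : Garb (lik (q := 3) (-(1 / 2)) N (regTree 4 N)) M) (hM : ∀ s i, 0 ≤ M s i)
    (hθ : 1 - 3 / 160 ≤ ∑ s, hvec (fun _ => 1 / 3) (chan (-(1 / 2)) (M s))) :
    Tendsto (fun n => aReg 3 4 (-(1 / 2)) n) atTop (𝓝 0) := by
  have hl0 : -1 / (((3 : ℕ) : ℝ) - 1) ≤ -(1 / 2) := by norm_num
  refine aReg_four_of_small ⟨N, fun n hn => hθ.trans ?_⟩
  refine (((garb_regTree_le (by norm_num) hl0 (by norm_num) 4 hn).trans hdom).channel
    (potts 3 (-(1 / 2)))).hvec_le (fun s i => ?_) (expo_zero ▸ expo_ok 0)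
  exact chan_nonneg (by norm_num) hl0 (by norm_num) (hM s) i

/-- The interface to limit bounds: a limit of the geometric-mean affinity above `1 - 3/160`
suffices. -/
theorem aReg_four_of_limit (h : 1 - 3 / 160 < hLim (q := 3) (fun _ => 1 / 3) (-(1 / 2)) 4) :
    Tendsto (fun n => aReg 3 4 (-(1 / 2)) n) atTop (𝓝 0) :=
  aReg_four_of_small (hChan_eventually_ge (by norm_num) (by norm_num) (by norm_num)
    (expo_zero ▸ expo_ok 0) 4 h)

end Vale.P154.AF4
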