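import Vale.Agent.P154.AF.BoxCert

/-!
# The nonlinear part for four children is below the majorant

With `x2 = r x1`, `x0 = s x1` the cleared inequality is a polynomial of degree `(3, 4, 4)` in
`(x1, r, s)`; nonnegative coefficients on the cells of a subdivision prove it.
-/

noncomputable section

namespace Vale.P154.AF4

open AF.Hom

namespace NonlinCert

/-- A subdivision: the first, second or third interval halved. -/
inductive Tr
  | L
  | X (a b : Tr)
  | R (a b : Tr)
  | S (a b : Tr)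

/-- The left half. -/
def lo (I : Ivl) : Ivl := ⟨2 * I.lo, I.lo + I.hi, 2 * I.q⟩

/-- The right half. -/
def hi (I : Ivl) : Ivl := ⟨I.lo + I.hi, 2 * I.hi, 2 * I.q⟩

/-- The checker. -/
def check (e : E) : Tr → Ivl → Ivl → Ivl → Bool
  | .L, I, J, K => (e.num I J K).1.all nn
  | .X a b, I, J, K => check e a (lo I) J K && check e b (hi I) J K
  | .R a b, I, J, K => check e a I (lo J) K && check e b I (hi J) K
  | .S a b, I, J, K => check e a I J (lo K) && check e b I J (hi K)

/-- Membership in a half-open interval. -/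
def Mem (I : Ivl) (v : ℝ) : Prop := 0 < I.q ∧ (I.lo : ℝ) ≤ v * I.q ∧ v * I.q < I.hi

theorem mem_split {I : Ivl} {v : ℝ} (h : Mem I v) : Mem (lo I) v ∨ Mem (hi I) v := by
  obtain ⟨hq, h1, h2⟩ := h
  rcases lt_or_ge (v * (2 * I.q)) ((I.lo : ℝ) + I.hi) with h3 | h3
  · left; refine ⟨Nat.mul_pos two_pos hq, ?_, ?_⟩ <;> simp only [lo] <;> push_cast <;> linarith
  · right; refine ⟨Nat.mul_pos two_pos hq, ?_, ?_⟩ <;> simp only [hi] <;> push_cast <;> linarith

theorem mem_pt {I : Ivl} {v : ℝ} (h : Mem I v) : ∃ r, 0 ≤ r ∧ I.pt r = v := by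
  obtain ⟨hq, h1, h2⟩ := h
  have q0 : (0 : ℝ) < I.q := Nat.cast_pos.2 hq
  exact I.exists_pt hq (by rw [div_le_iff₀ q0]; linarith) (by rw [lt_div_iff₀ q0]; linarith)

theorem check_sound (e : E) : ∀ (t : Tr) (I J K : Ivl), check e t I J K = true → ∀ {a b c : ℝ},
    Mem I a → Mem J b → Mem K c → 0 ≤ e.val a b c
  | .L, I, J, K, h, a, b, c, ha, hb, hc => by
      obtain ⟨x, hx, rfl⟩ := mem_pt ha
      obtain ⟨y, hy, rfl⟩ := mem_pt hb
      obtain ⟨z, hz, rfl⟩ := mem_pt hc
      exact e.val_nonneg_box I J K ha.1 hb.1 hc.1 h hx hy hz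
  | .X u w, I, J, K, h, a, b, c, ha, hb, hc => by
      simp only [check, Bool.and_eq_true] at h
      exact (mem_split ha).elim (fun m => check_sound e u _ J K h.1 m hb hc)
        (fun m => check_sound e w _ J K h.2 m hb hc)
  | .R u w, I, J, K, h, a, b, c, ha, hb, hc => by
      simp only [check, Bool.and_eq_true] at h
      exact (mem_split hb).elim (fun m => check_sound e u I _ K h.1 ha m hc)
        (fun m => check_sound e w I _ K h.2 ha m hc)
  | .S u w, I, J, K, h, a, b, c, ha, hb, hc => by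
      simp only [check, Bool.and_eq_true] at h
      exact (mem_split hc).elim (fun m => check_sound e u I J _ h.1 ha hb m)
        (fun m => check_sound e w I J _ h.2 ha hb m)

/-- `C (96 z^2 - 16 z^3 X + z^4 X^2)`. -/
def part (C : ℤ) (z : E) : E :=
  .mul (.C C) (.mul (.pow z 2)
    (.add (.sub (.C 96) (.mul (.C 16) (.mul z .A))) (.mul (.pow z 2) (.pow .A 2))))

/-- `2560000` times the cleared difference, divided by `x1 ^ 2`. -/
def D : E :=
  .add (.mul (.C 192) (.pow (.sub (.sub (.C 765) (.mul (.C 540) .B)) (.mul (.C 325) .G)) 2))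
    (.mul (.mul (.C 100) (.add (.C 1) (.mul (.C 4) .A)))
      (.add (.add (part (-708) (.C 1)) (part 544 .B)) (part 464 .G)))

/-- The subdivision. -/
def tree : Tr :=
  (.R (.S .L (.X .L (.R (.S (.X .L (.R .L (.S .L .L))) (.X .L (.R (.S .L .L) (.S (.X .L (.R .L .L))
    .L)))) (.S (.X .L (.R (.S .L .L) .L)) .L)))) (.S .L (.X .L (.R (.S .L .L) .L))))

theorem cert :
    check D tree ⟨0, 151, 2000⟩ ⟨180, 201, 200⟩ ⟨90, 141, 200⟩ = true := by decide +kernel

end NonlinCert

/-- The nonlinear part of the recursion is at most the majorant. -/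
theorem nonlin_le {x1 x2 x0 : ℝ} (h0 : 0 ≤ x1) (hx : x1 ≤ 3 / 40) (hr0 : 9 / 10 * x1 ≤ x2)
    (hr1 : x2 ≤ x1) (hs0 : 9 / 20 * x1 ≤ x0) (hs1 : x0 ≤ 7 / 10 * x1) :
    -708 / 100 * (1 - (1 - x1 / 4) ^ 4 - x1) + 544 / 100 * (1 - (1 - x2 / 4) ^ 4 - x2)
        + 464 / 100 * (1 - (1 - x0 / 4) ^ 4 - x0)
      ≤ 3 / 4 * ((765 * x1 - 540 * x2 - 325 * x0) / 100) ^ 2 / (1 + 4 * x1) := by
  rcases h0.eq_or_lt with e | hp
  · obtain rfl : x2 = 0 := by linarith
    obtain rfl : x0 = 0 := by linarith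
    subst e
    norm_num
  · have h := NonlinCert.check_sound _ _ _ _ _ NonlinCert.cert (a := x1) (b := x2 / x1)
      (c := x0 / x1) ⟨by norm_num, by norm_num; linarith, by norm_num; linarith⟩
      ⟨by norm_num, by rw [div_mul_eq_mul_div, le_div_iff₀ hp]; norm_num; linarith,
        by rw [div_mul_eq_mul_div, div_lt_iff₀ hp]; norm_num; linarith⟩
      ⟨by norm_num, by rw [div_mul_eq_mul_div, le_div_iff₀ hp]; norm_num; linarith,
        by rw [div_mul_eq_mul_div, div_lt_iff₀ hp]; norm_num; linarith⟩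
    have h2 := mul_nonneg h (sq_nonneg x1)
    obtain ⟨r, rfl⟩ : ∃ r, x2 = r * x1 := ⟨x2 / x1, (div_mul_cancel₀ _ hp.ne').symm⟩
    obtain ⟨s, rfl⟩ : ∃ s, x0 = s * x1 := ⟨x0 / x1, (div_mul_cancel₀ _ hp.ne').symm⟩
    simp only [mul_div_cancel_right₀ _ hp.ne', NonlinCert.D, NonlinCert.part, E.val] at h2
    push_cast at h2
    rw [le_div_iff₀ (by linarith)]
    linarith

end Vale.P154.AF4
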