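import Vale.Agent.P154.AF4.Certs

/-!
# The one-vector inequality for four children, in the sixth roots

`a, b, c` are the roots at the node and `A, B, C` after one edge.
-/

noncomputable section

namespace Vale.P154.AF4

open AF.Hom

/-- Exponents `(2,2,2)/6`. -/
def h1 (a b c : ℝ) : ℝ := (a * b * c) ^ 2

/-- Exponents `(3,2,1)/6`, symmetrised. -/
def h2 (a b c : ℝ) : ℝ :=
  a * b * c * (a ^ 2 * (b + c) + b ^ 2 * (a + c) + c ^ 2 * (a + b)) / 6

/-- Exponents `(0,2,4)/6`, symmetrised. -/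
def h0 (a b c : ℝ) : ℝ :=
  (a ^ 2 * (b ^ 4 + c ^ 4) + b ^ 2 * (a ^ 4 + c ^ 4) + c ^ 2 * (a ^ 4 + b ^ 4)) / 6

/-- The sum of squares. -/
def pp (a b c : ℝ) : ℝ := (a ^ 6 - 1) ^ 2 + (b ^ 6 - 1) ^ 2 + (c ^ 6 - 1) ^ 2

/-- The sum of cubes. -/
def tt (a b c : ℝ) : ℝ := (a ^ 6 - 1) ^ 3 + (b ^ 6 - 1) ^ 3 + (c ^ 6 - 1) ^ 3

/-- The Lyapunov function. -/
def gg (a b c : ℝ) : ℝ :=
  -708 / 100 * (1 - h1 a b c) + 544 / 100 * (1 - h2 a b c) + 464 / 100 * (1 - h0 a b c)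

/-- The linear form in the majorant. -/
def ee (a b c : ℝ) : ℝ :=
  (765 * (1 - h1 a b c) - 540 * (1 - h2 a b c) - 325 * (1 - h0 a b c)) / 100

/-- The roots at a node and after one edge with eigenvalue `-1/2`. -/
structure Pair (a b c A B C : ℝ) : Prop where
  ha : 0 ≤ a
  hb : 0 ≤ b
  hc : 0 ≤ c
  hA : 0 ≤ A
  hB : 0 ≤ B
  hC : 0 ≤ C
  hs : a ^ 6 + b ^ 6 + c ^ 6 = 3
  eA : 2 * A ^ 6 + a ^ 6 = 3
  eB : 2 * B ^ 6 + b ^ 6 = 3
  eC : 2 * C ^ 6 + c ^ 6 = 3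

/-- What is to be proved. -/
def Goal (a b c A B C : ℝ) : Prop :=
  0 ≤ 1 - h1 A B C ∧ 9 / 10 * (1 - h1 A B C) ≤ 1 - h2 A B C ∧ 1 - h2 A B C ≤ 1 - h1 A B C ∧
    9 / 20 * (1 - h1 A B C) ≤ 1 - h0 A B C ∧ 1 - h0 A B C ≤ 7 / 10 * (1 - h1 A B C) ∧
    4 * gg A B C + 12 * ee A B C ^ 2 / (1 + 16 * (1 - h1 A B C))
      + 1 / 5000000 * pp a b c ^ 2 ≤ gg a b c

variable {a b c A B C : ℝ}

theorem Pair.swap (h : Pair a b c A B C) : Pair b a c B A C :=
  ⟨h.hb, h.ha, h.hc, h.hB, h.hA, h.hC, by linarith [h.hs], h.eB, h.eA, h.eC⟩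

theorem Pair.rot (h : Pair a b c A B C) : Pair b c a B C A :=
  ⟨h.hb, h.hc, h.ha, h.hB, h.hC, h.hA, by linarith [h.hs], h.eB, h.eC, h.eA⟩

theorem h1_swap : h1 b a c = h1 a b c := by unfold h1; ring
theorem h2_swap : h2 b a c = h2 a b c := by unfold h2; ring
theorem h0_swap : h0 b a c = h0 a b c := by unfold h0; ring
theorem h1_rot : h1 b c a = h1 a b c := by unfold h1; ring
theorem h2_rot : h2 b c a = h2 a b c := by unfold h2; ring
theorem h0_rot : h0 b c a = h0 a b c := by unfold h0; ring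
theorem pp_swap : pp b a c = pp a b c := by unfold pp; ring
theorem pp_rot : pp b c a = pp a b c := by unfold pp; ring

theorem Goal.swap (h : Goal b a c B A C) : Goal a b c A B C := by
  simpa only [Goal, gg, ee, h1_swap, h2_swap, h0_swap, pp_swap] using h

theorem Goal.rot (h : Goal b c a B C A) : Goal a b c A B C := by
  simpa only [Goal, gg, ee, h1_rot, h2_rot, h0_rot, pp_rot] using h

theorem sE_val (h : a ^ 6 + b ^ 6 + c ^ 6 = 3) : sE.val a b c = 3 := by simpa [sE] using h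

theorem pE_val (h : a ^ 6 + b ^ 6 + c ^ 6 = 3) : pE.val a b c = 9 * pp a b c := by
  simp only [pE, yE, E.val, sE_val h, pp]; push_cast; ring

theorem tE_val (h : a ^ 6 + b ^ 6 + c ^ 6 = 3) : tE.val a b c = 27 * tt a b c := by
  simp only [tE, yE, E.val, sE_val h, tt]; push_cast; ring

theorem x1E_val (h : a ^ 6 + b ^ 6 + c ^ 6 = 3) : x1E.val a b c = 6 * (1 - h1 a b c) := by
  simp only [x1E, E.val, sE_val h, h1]; push_cast; ring

theorem x2E_val (h : a ^ 6 + b ^ 6 + c ^ 6 = 3) : x2E.val a b c = 6 * (1 - h2 a b c) := by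
  simp only [x2E, E.val, sE_val h, h2]; push_cast; ring

theorem x0E_val (h : a ^ 6 + b ^ 6 + c ^ 6 = 3) : x0E.val a b c = 6 * (1 - h0 a b c) := by
  simp only [x0E, E.val, sE_val h, h0]; push_cast; ring

theorem lE_val (h : a ^ 6 + b ^ 6 + c ^ 6 = 3) (l1 l2 l0 : ℤ) : (lE l1 l2 l0).val a b c =
    6 * (l1 * (1 - h1 a b c) + l2 * (1 - h2 a b c) + l0 * (1 - h0 a b c)) := by
  simp only [lE, E.val, x1E_val h, x2E_val h, x0E_val h]; ring

/-- The triangles at the node. -/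
theorem cover {e : E}
    (t0 : OnTri e (10, 5, 5) (10, 10, 0) (10, 3, 0))
     (t1 : OnTri e (10, 5, 5) (10, 3, 0) (10, 3, 3))
     (t2 : OnTri e (2, 2, 1) (1, 1, 0) (2, 1, 1))
     (t3 : OnTri e (3, 2, 2) (2, 2, 1) (2, 1, 1))
     (t4 : OnTri e (3, 3, 2) (2, 2, 1) (3, 2, 2))
     (t5 : OnTri e (1, 1, 1) (3, 3, 2) (3, 2, 2))
    (hc : 0 ≤ c) (hcb : c ≤ b) (hba : b ≤ a) (hlow : 3 * a ≤ 10 * b) :
    0 ≤ e.val a b c := by
  rcases le_total (b + c) a with h | h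
  · rcases le_total (3 * a + 4 * c) (10 * b) with h' | h'
    · refine (t0 (c / 5) ((10 * b - 4 * c - 3 * a) / 70) ((a - b - c) / 7) (by linarith)
        (by linarith) (by linarith)).trans_eq ?_
      congr 1 <;> push_cast <;> ring
    · refine (t1 ((10 * b - 3 * a) / 20) ((b - c) / 3) ((3 * a - 10 * b + 4 * c) / 12) (by linarith)
        (by linarith) (by linarith)).trans_eq ?_
      congr 1 <;> push_cast <;> ring
  rcases le_total (2 * c) a with h' | h'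
  · refine (t2 (b + c - a) (a - 2 * c) (a - b) (by linarith) (by linarith)
      (by linarith)).trans_eq ?_
    congr 1 <;> push_cast <;> ring
  rcases le_total (2 * c - a) (a - b) with h'' | h''
  · refine (t3 (2 * c - a) (b - c) (2 * a - b - 2 * c) (by linarith) (by linarith)
      (by linarith)).trans_eq ?_
    congr 1 <;> push_cast <;> ring
  rcases le_total (2 * c - a) (a - c) with h3 | h3
  · refine (t4 (2 * c - 2 * a + b) (2 * a - 3 * c) (a - b) (by linarith) (by linarith)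
      (by linarith)).trans_eq ?_
    congr 1 <;> push_cast <;> ring
  · refine (t5 (3 * c - 2 * a) (b - c) (a - b) (by linarith) (by linarith)
      (by linarith)).trans_eq ?_
    congr 1 <;> push_cast <;> ring

theorem le_of_pow6 {x y : ℝ} (hy : 0 ≤ y) (h : x ^ 6 ≤ y ^ 6) : x ≤ y :=
  le_of_pow_le_pow_left₀ (by norm_num) hy h

/-- The inequality near the corner, in the two small roots. -/
theorem corner_poly {z w : ℝ} (_hz0 : 0 ≤ z) (hz : z ≤ 373 / 1000) (hw0 : 89 / 100 * z ≤ w)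
    (hw : w ≤ z) :
    0 ≤ ((3 - 544 / 100 * (1201 / 1000 * z * z * (2 * (1201 / 1000) ^ 2 * z
            + 2 * (1201 / 1000) * z ^ 2 + 2 * z ^ 3) / 6)
          - 464 / 100 * ((2 * (1201 / 1000) ^ 4 * z ^ 2 + 2 * (1201 / 1000) ^ 2 * z ^ 4
            + 2 * z ^ 6) / 6))
        - (-708 / 100 * (4 - 4 * ((107 / 100) ^ 4 * w ^ 2))
          + 544 / 100 * (4 - 4 * (((10695 / 10000) ^ 5 * w + (10695 / 10000) ^ 4 * w ^ 2
              + (10695 / 10000) ^ 3 * w ^ 3) / 3))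
          + 464 / 100 * (4 - 4 * (1 / 2 - z ^ 6 / 3 + ((10695 / 10000) ^ 4 * w ^ 2
              + (10695 / 10000) ^ 2 * w ^ 4) / 3))) - 1 / 100000)
        * (17 - 16 * ((107 / 100) ^ 4 * w ^ 2))
      - 3 / 4 * (765 / 100 * (4 - 4 * ((10695 / 10000) ^ 4 * w ^ 2))
          - 540 / 100 * (4 - 4 * (((107 / 100) ^ 5 * w + (107 / 100) ^ 4 * w ^ 2
              + (107 / 100) ^ 3 * w ^ 3) / 3))
          - 325 / 100 * (4 - 4 * (1 / 2 + ((107 / 100) ^ 4 * w ^ 2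
              + (107 / 100) ^ 2 * w ^ 4) / 3))) ^ 2 := by
  have h := fC_tri (1 - z * 1000 / 373) ((z - w) / 4103) ((w - 89 / 100 * z) / 4103)
    (by linarith) (by linarith) (by linarith)
  push_cast at h
  rw [show (1 : ℝ) * (1 - z * 1000 / 373) + 100000 * ((z - w) / 4103)
        + 100000 * ((w - 89 / 100 * z) / 4103) = 1 by ring,
    show (0 : ℝ) * (1 - z * 1000 / 373) + 37300 * ((z - w) / 4103)
        + 37300 * ((w - 89 / 100 * z) / 4103) = z by ring,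
    show (0 : ℝ) * (1 - z * 1000 / 373) + 33197 * ((z - w) / 4103)
        + 37300 * ((w - 89 / 100 * z) / 4103) = w by ring] at h
  simp only [fC, E.val, one_pow, one_mul, mul_one] at h
  push_cast at h
  refine nonneg_of_mul_nonneg_right (a := (76800000000000000000000000000 : ℝ)) ?_ (by norm_num)
  linear_combination h

/-- Bounds after one edge, from a range for the two large roots. -/
theorem edge_bounds {r R : ℝ} (h : Pair a b c A B C) (hcb : c ≤ b) (hr : 0 ≤ r)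
    (Blo : r ≤ B) (Bhi : B ≤ R) (Clo : r ≤ C) (Chi : C ≤ R) :
    (r ^ 4 * A ^ 2 ≤ h1 A B C ∧ h1 A B C ≤ R ^ 4 * A ^ 2) ∧
    ((r ^ 5 * A + r ^ 4 * A ^ 2 + r ^ 3 * A ^ 3) / 3 ≤ h2 A B C ∧
      h2 A B C ≤ (R ^ 5 * A + R ^ 4 * A ^ 2 + R ^ 3 * A ^ 3) / 3) ∧
    (1 / 2 - b ^ 6 / 3 + (r ^ 4 * A ^ 2 + r ^ 2 * A ^ 4) / 3 ≤ h0 A B C ∧
      h0 A B C ≤ 1 / 2 + (R ^ 4 * A ^ 2 + R ^ 2 * A ^ 4) / 3) := by
  obtain ⟨ha, hb, hc, hA, hB, hC, hs, eA, eB, eC⟩ := h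
  have R0 : 0 ≤ R := hB.trans Bhi
  have hcb6 : c ^ 6 ≤ b ^ 6 := pow_le_pow_left₀ hc hcb 6
  have hb6 : 0 ≤ b ^ 6 := pow_nonneg hb 6
  have hc6 : 0 ≤ c ^ 6 := pow_nonneg hc 6
  have hBC : B ≤ C := le_of_pow6 hC (by linarith)
  refine ⟨?_, ⟨?_, ?_⟩, ?_⟩
  · have e : h1 A B C = A ^ 2 * (B ^ 2 * C ^ 2) := by unfold h1; ring
    rw [e]
    constructor
    · rw [show r ^ 4 * A ^ 2 = A ^ 2 * (r ^ 2 * r ^ 2) by ring]; gcongr
    · rw [show R ^ 4 * A ^ 2 = A ^ 2 * (R ^ 2 * R ^ 2) by ring]; gcongr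
  · calc (r ^ 5 * A + r ^ 4 * A ^ 2 + r ^ 3 * A ^ 3) / 3
        = A * (r * r) * (r ^ 2 * r + r * r ^ 2 + A * (r ^ 2 + r ^ 2) + A ^ 2 * (r + r)) / 6 := by
          ring
      _ ≤ A * (B * C) * (B ^ 2 * C + B * C ^ 2 + A * (B ^ 2 + C ^ 2) + A ^ 2 * (B + C)) / 6 := by
          gcongr
      _ = h2 A B C := by unfold h2; ring
  · calc h2 A B C
        = A * (B * C) * (B ^ 2 * C + B * C ^ 2 + A * (B ^ 2 + C ^ 2) + A ^ 2 * (B + C)) / 6 := by
          unfold h2; ring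
      _ ≤ A * (R * R) * (R ^ 2 * R + R * R ^ 2 + A * (R ^ 2 + R ^ 2) + A ^ 2 * (R + R)) / 6 := by
          gcongr
      _ = (R ^ 5 * A + R ^ 4 * A ^ 2 + R ^ 3 * A ^ 3) / 3 := by ring
  · have q0 : B ^ 2 * B ^ 4 + B ^ 4 * B ^ 2 ≤ B ^ 2 * C ^ 4 + B ^ 4 * C ^ 2 := by gcongr
    have q1 : B ^ 2 * C ^ 4 + B ^ 4 * C ^ 2 ≤ B ^ 6 + C ^ 6 := by
      nlinarith only [mul_nonneg (sq_nonneg (B ^ 2 - C ^ 2))
        (add_nonneg (sq_nonneg B) (sq_nonneg C))]
    have lo : A ^ 2 * (r ^ 4 + r ^ 4) + A ^ 4 * (r ^ 2 + r ^ 2) ≤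
        A ^ 2 * (B ^ 4 + C ^ 4) + A ^ 4 * (B ^ 2 + C ^ 2) := by gcongr
    have up : A ^ 2 * (B ^ 4 + C ^ 4) + A ^ 4 * (B ^ 2 + C ^ 2) ≤
        A ^ 2 * (R ^ 4 + R ^ 4) + A ^ 4 * (R ^ 2 + R ^ 2) := by gcongr
    constructor <;> simp only [h0] <;> linarith

/-- Bounds at the node. -/
theorem node_bounds {L : ℝ} (ha : 0 ≤ a) (hb : 0 ≤ b) (hc : 0 ≤ c) (hcb : c ≤ b) (hL : a ≤ L) :
    h2 a b c ≤ L * b * b * (2 * L ^ 2 * b + 2 * L * b ^ 2 + 2 * b ^ 3) / 6 ∧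
    h0 a b c ≤ (2 * L ^ 4 * b ^ 2 + 2 * L ^ 2 * b ^ 4 + 2 * b ^ 6) / 6 := by
  have L0 : 0 ≤ L := ha.trans hL
  constructor
  · calc h2 a b c ≤ L * b * b * (L ^ 2 * (b + b) + b ^ 2 * (L + b) + b ^ 2 * (L + b)) / 6 := by
          unfold h2; gcongr
      _ = _ := by ring
  · calc h0 a b c
        ≤ (L ^ 2 * (b ^ 4 + b ^ 4) + b ^ 2 * (L ^ 4 + b ^ 4) + b ^ 2 * (L ^ 4 + b ^ 4)) / 6 := by
          unfold h0; gcongr
      _ = _ := by ring

theorem pp_le_six (h : Pair a b c A B C) : 0 ≤ pp a b c ∧ pp a b c ≤ 6 := by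
  have ha := pow_nonneg h.ha 6
  have hb := pow_nonneg h.hb 6
  have hc := pow_nonneg h.hc 6
  have hs := h.hs
  unfold pp
  exact ⟨by positivity,
    by nlinarith only [hs, mul_nonneg ha hb, mul_nonneg ha hc, mul_nonneg hb hc]⟩

theorem main_corner (h : Pair a b c A B C) (hcb : c ≤ b)
    (hlow : 100 * b ≤ 31 * a) :
    4 * gg A B C + 12 * ee A B C ^ 2 / (1 + 16 * (1 - h1 A B C))
      + 1 / 5000000 * pp a b c ^ 2 ≤ gg a b c := by
  obtain ⟨hp0, hp6⟩ := pp_le_six h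
  have hp : pp a b c ^ 2 ≤ 36 := le_trans (pow_le_pow_left₀ hp0 hp6 2) (by norm_num)
  have hA := h.hA
  have eA := h.eA
  have eB := h.eB
  have eC := h.eC
  have hs := h.hs
  have hb6 : 0 ≤ b ^ 6 := pow_nonneg h.hb 6
  have hc6 : 0 ≤ c ^ 6 := pow_nonneg h.hc 6
  have hcb6 : c ^ 6 ≤ b ^ 6 := pow_le_pow_left₀ h.hc hcb 6
  have a1 : a ≤ 1201 / 1000 := le_of_pow6 (by norm_num) (by norm_num; linarith)
  have hz : b ≤ 373 / 1000 := by linarith
  have hz6 : b ^ 6 ≤ (373 / 1000) ^ 6 := pow_le_pow_left₀ h.hb hz 6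
  norm_num at hz6
  have Alo : 89 / 100 * b ≤ A := le_of_pow6 hA (by rw [mul_pow]; norm_num; linarith)
  have Ahi : A ≤ b := le_of_pow6 h.hb (by linarith)
  have Blo : (10695 / 10000 : ℝ) ≤ B := le_of_pow6 h.hB (by norm_num; linarith)
  have Bhi : B ≤ 107 / 100 := le_of_pow6 (by norm_num) (by norm_num; linarith)
  have Clo : (10695 / 10000 : ℝ) ≤ C := le_of_pow6 h.hC (by norm_num; linarith)
  have Chi : C ≤ 107 / 100 := le_of_pow6 (by norm_num) (by norm_num; linarith)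
  obtain ⟨⟨l1, u1⟩, ⟨l2, u2⟩, l0, u0⟩ := edge_bounds h hcb (by norm_num) Blo Bhi Clo Chi
  obtain ⟨v2, v0⟩ := node_bounds h.ha h.hb h.hc hcb a1
  have v1 : 0 ≤ h1 a b c := sq_nonneg _
  have hP := corner_poly h.hb hz Alo Ahi
  have elo : 0 ≤ ee A B C := by
    unfold ee
    norm_num at l2 l0 u1
    nlinarith only [l2, l0, u1, hz6, hA, mul_nonneg hA (sub_nonneg.2 (Ahi.trans hz)),
      pow_nonneg hA 3, pow_nonneg hA 4]
  have hden : (17 : ℝ) - 16 * ((107 / 100) ^ 4 * A ^ 2) ≤ 1 + 16 * (1 - h1 A B C) := by linarith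
  have hden0 : (0 : ℝ) < 17 - 16 * ((107 / 100) ^ 4 * A ^ 2) := by
    have : A ^ 2 ≤ (373 / 1000) ^ 2 := pow_le_pow_left₀ hA (Ahi.trans hz) 2
    norm_num at this ⊢; linarith
  have hP' := (div_le_iff₀ hden0).2 (sub_nonneg.1 hP)
  have hE : 12 * ee A B C ^ 2 / (1 + 16 * (1 - h1 A B C)) ≤
      3 / 4 * (765 / 100 * (4 - 4 * ((10695 / 10000) ^ 4 * A ^ 2))
          - 540 / 100 * (4 - 4 * (((107 / 100) ^ 5 * A + (107 / 100) ^ 4 * A ^ 2
              + (107 / 100) ^ 3 * A ^ 3) / 3))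
          - 325 / 100 * (4 - 4 * (1 / 2 + ((107 / 100) ^ 4 * A ^ 2
              + (107 / 100) ^ 2 * A ^ 4) / 3))) ^ 2 / (17 - 16 * ((107 / 100) ^ 4 * A ^ 2)) := by
    rw [show 12 * ee A B C ^ 2 = 3 / 4 * (4 * ee A B C) ^ 2 by ring]
    gcongr
    unfold ee
    linarith
  simp only [gg]
  linarith

/-- The denominator of the bound. -/
def dd (p t : ℝ) : ℝ := 1 - 16 / 100 * t + 1 / 100 * p

/-- The numerator of the bound. -/
def nn4 (p t : ℝ) : ℝ :=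
  (9270 * p ^ 2 + 4453 * p * t - 1428 * p ^ 3 - 1025 * t ^ 2) / 1000000

theorem fV_val (h : a ^ 6 + b ^ 6 + c ^ 6 = 3) : fV.val a b c = 2187000000 *
    ((gg a b c - pp a b c / 6) * dd (pp a b c) (tt a b c) - nn4 (pp a b c) (tt a b c)
      - pp a b c ^ 2 / 1000000) := by
  simp only [fV, denV, E.val, lE_val h, sE_val h, pE_val h, tE_val h]
  simp only [gg, dd, nn4]
  push_cast; ring

theorem dV_val (h : a ^ 6 + b ^ 6 + c ^ 6 = 3) :
    dV.val a b c = 2700 * dd (pp a b c) (tt a b c) - 135 := by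
  simp only [dV, denV, E.val, sE_val h, pE_val h, tE_val h, dd]
  push_cast; ring

theorem fU_val {p t : ℝ} (h : a ^ 6 + b ^ 6 + c ^ 6 = 3) (hp : pp a b c = p / 4)
    (ht : tt a b c = -t / 8) : fU.val a b c = 6561000000 *
    (dd p t * ((p / 6 - 4 * gg a b c) * (1 + 16 * (1 - h1 a b c)) - 12 * ee a b c ^ 2)
      + (1 + 16 * (1 - h1 a b c)) * nn4 p t) := by
  simp only [fU, denU, E.val, lE_val h, x1E_val h, sE_val h, pE_val h, tE_val h, hp, ht]
  simp only [gg, ee, dd, nn4]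
  push_cast; ring

/-- The two bounds give the inequality. -/
theorem bulk_alg {g G e x p num den : ℝ} (hd0 : 0 < den) (hd5 : den ≤ 5) (hx : 0 ≤ x)
    (fv : 0 ≤ (g - p / 6) * den - num - p ^ 2 / 1000000)
    (fu : 0 ≤ den * ((p / 6 - 4 * G) * (1 + 16 * x) - 12 * e ^ 2) + (1 + 16 * x) * num) :
    4 * G + 12 * e ^ 2 / (1 + 16 * x) + 1 / 5000000 * p ^ 2 ≤ g := by
  have h12 : 12 * e ^ 2 / (1 + 16 * x) ≤ p / 6 - 4 * G + num / den := by
    rw [div_le_iff₀ (by linarith)]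
    refine le_of_mul_le_mul_left ?_ hd0
    have : den * (num / den) = num := mul_div_cancel₀ _ hd0.ne'
    linear_combination fu - (1 + 16 * x) * this
  have hG : num / den ≤ g - p / 6 - 1 / 5000000 * p ^ 2 := by
    rw [div_le_iff₀ hd0]
    nlinarith only [fv, mul_le_mul_of_nonneg_left hd5 (sq_nonneg p)]
  linarith

theorem dd_le_five (h : Pair a b c A B C) : dd (pp a b c) (tt a b c) ≤ 5 := by
  have ha := pow_nonneg h.ha 6
  have hb := pow_nonneg h.hb 6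
  have hc := pow_nonneg h.hc 6
  obtain ⟨-, hp6⟩ := pp_le_six h
  have cube : ∀ x : ℝ, 0 ≤ x → -1 ≤ (x - 1) ^ 3 := fun x hx => by
    nlinarith only [mul_nonneg hx (sq_nonneg (2 * x - 3)), hx]
  have a3 := cube _ ha
  have b3 := cube _ hb
  have c3 := cube _ hc
  simp only [dd, tt]
  linarith

theorem main_bulk (h : Pair a b c A B C) (hcb : c ≤ b) (hba : b ≤ a)
    (hlow : 31 * a ≤ 100 * b) :
    4 * gg A B C + 12 * ee A B C ^ 2 / (1 + 16 * (1 - h1 A B C))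
      + 1 / 5000000 * pp a b c ^ 2 ≤ gg a b c := by
  have hd5 := dd_le_five h
  obtain ⟨ha, hb, hc, hA, hB, hC, hs, eA, eB, eC⟩ := h
  have hb6 : 0 ≤ b ^ 6 := pow_nonneg hb 6
  have hc6 : 0 ≤ c ^ 6 := pow_nonneg hc 6
  have hcb6 : c ^ 6 ≤ b ^ 6 := pow_le_pow_left₀ hc hcb 6
  have hba6 : b ^ 6 ≤ a ^ 6 := pow_le_pow_left₀ hb hba 6
  have hs' : C ^ 6 + B ^ 6 + A ^ 6 = 3 := by linarith
  have hAB : A ≤ B := le_of_pow6 hB (by linarith)
  have hBC : B ≤ C := le_of_pow6 hC (by linarith)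
  have hB0 : 0 < B := by
    rcases hB.eq_or_lt with h0 | h0
    · subst h0; norm_num at eB; linarith
    · exact h0
  have h31 : (31 / 100) ^ 6 * a ^ 6 ≤ b ^ 6 := by
    rw [← mul_pow]; exact pow_le_pow_left₀ (by positivity) (by linarith) 6
  norm_num at h31
  have hlowU : 3 * B ≤ 10 * A := by
    have : 3 / 10 * B ≤ A := le_of_pow6 hA (by rw [mul_pow]; norm_num; linarith)
    linarith
  have h6 : C ^ 6 ≤ B ^ 6 + A ^ 6 := by linarith
  have fv := cover fV_t0 fV_t1 fV_t2 fV_t3 fV_t4 fV_t5 hc hcb hba (by linarith)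
  have dv := cover dV_t0 dV_t1 dV_t2 dV_t3 dV_t4 dV_t5 hc hcb hba (by linarith)
  have fu := fU_fan.nonneg hA hB0 hAB hBC h6 hlowU
  have hx := x1_fan.nonneg hA hB0 hAB hBC h6
  rw [fV_val hs] at fv
  rw [dV_val hs] at dv
  have eA6 : A ^ 6 = (3 - a ^ 6) / 2 := by linarith
  have eB6 : B ^ 6 = (3 - b ^ 6) / 2 := by linarith
  have eC6 : C ^ 6 = (3 - c ^ 6) / 2 := by linarith
  have epu : pp C B A = pp a b c / 4 := by simp only [pp, eA6, eB6, eC6]; ring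
  have etu : tt C B A = -tt a b c / 8 := by simp only [tt, eA6, eB6, eC6]; ring
  have s1 : h1 C B A = h1 A B C := by unfold h1; ring
  have s2 : h2 C B A = h2 A B C := by unfold h2; ring
  have s0 : h0 C B A = h0 A B C := by unfold h0; ring
  rw [fU_val hs' epu etu] at fu
  rw [lE_val hs'] at hx
  simp only [gg, ee, s1, s2, s0] at fu hx
  push_cast at hx
  exact bulk_alg (by linarith) hd5 (by linarith)
    (nonneg_of_mul_nonneg_right fv (by norm_num)) (nonneg_of_mul_nonneg_right fu (by norm_num))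

theorem goal_ordered (h : Pair a b c A B C) (hcb : c ≤ b) (hba : b ≤ a) : Goal a b c A B C := by
  have hb6 : 0 ≤ b ^ 6 := pow_nonneg h.hb 6
  have hc6 : 0 ≤ c ^ 6 := pow_nonneg h.hc 6
  have hcb6 : c ^ 6 ≤ b ^ 6 := pow_le_pow_left₀ h.hc hcb 6
  have hba6 : b ^ 6 ≤ a ^ 6 := pow_le_pow_left₀ h.hb hba 6
  have hs := h.hs
  have eA := h.eA
  have eB := h.eB
  have eC := h.eC
  have hs' : C ^ 6 + B ^ 6 + A ^ 6 = 3 := by linarith
  have hAB : A ≤ B := le_of_pow6 h.hB (by linarith)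
  have hBC : B ≤ C := le_of_pow6 h.hC (by linarith)
  have hB0 : 0 < B := by
    rcases h.hB.eq_or_lt with h0 | h0
    · rw [← h0] at eB; norm_num at eB; linarith
    · exact h0
  have h6 : C ^ 6 ≤ B ^ 6 + A ^ 6 := by linarith
  have s1 : h1 C B A = h1 A B C := by unfold h1; ring
  have s2 : h2 C B A = h2 A B C := by unfold h2; ring
  have s0 : h0 C B A = h0 A B C := by unfold h0; ring
  have f1 := x1_fan.nonneg h.hA hB0 hAB hBC h6
  have f2 := r0_fan.nonneg h.hA hB0 hAB hBC h6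
  have f3 := r1_fan.nonneg h.hA hB0 hAB hBC h6
  have f4 := s0_fan.nonneg h.hA hB0 hAB hBC h6
  have f5 := s1_fan.nonneg h.hA hB0 hAB hBC h6
  rw [lE_val hs', s1, s2, s0] at f1 f2 f3 f4 f5
  push_cast at f1 f2 f3 f4 f5
  refine ⟨by linarith, by linarith, by linarith, by linarith, by linarith, ?_⟩
  rcases le_total (100 * b) (31 * a) with hl | hl
  · exact main_corner h hcb hl
  · exact main_bulk h hcb hba hl

theorem goal (h : Pair a b c A B C) : Goal a b c A B C := by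
  rcases le_total b a with hab | hab <;> rcases le_total c b with hbc | hbc <;>
    rcases le_total c a with hac | hac
  · exact goal_ordered h hbc hab
  · exact goal_ordered h hbc hab
  · exact (goal_ordered h.rot.rot.swap hbc hac).swap.rot.rot
  · exact (goal_ordered h.rot.rot hab hac).rot.rot
  · exact (goal_ordered h.swap hac hab).swap
  · exact (goal_ordered h.rot hac hbc).rot
  · exact (goal_ordered h.rot.swap hab hbc).swap.rot
  · exact (goal_ordered h.rot.swap hab hbc).swap.rot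

end Vale.P154.AF4
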