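import Vale.Agent.P154.AF4.Assembly
import Vale.Agent.P154.AF4.Roots

/-!
# The one-vector facts on the simplex

The exponents are multiples of one sixth, so the three functionals are polynomials in sixth roots.
-/

noncomputable section

namespace Vale.P154.AF4

open Finset

/-- The sixth root. -/
def root6 (x : ℝ) : ℝ := x ^ ((1 : ℝ) / 6)

theorem rpow_root6 {x : ℝ} (hx : 0 ≤ x) (k : ℕ) : x ^ ((k : ℝ) / 6) = root6 x ^ k := by
  rw [root6, ← Real.rpow_natCast (x ^ ((1 : ℝ) / 6)) k, ← Real.rpow_mul hx]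
  congr 1; ring

theorem root6_nonneg {x : ℝ} (hx : 0 ≤ x) : 0 ≤ root6 x := Real.rpow_nonneg hx _

theorem root6_pow {x : ℝ} (hx : 0 ≤ x) : root6 x ^ 6 = x := by
  rw [← rpow_root6 hx 6]; norm_num

theorem sum_perm (F : Equiv.Perm (Fin 3) → ℝ) :
    ∑ π, F π = F 1 + F (Equiv.swap 0 1) + F (Equiv.swap 0 2) + F (Equiv.swap 1 2)
      + F (Equiv.swap 0 1 * Equiv.swap 1 2) + F (Equiv.swap 1 2 * Equiv.swap 0 1) := by
  have h : (Finset.univ : Finset (Equiv.Perm (Fin 3))) = {1, Equiv.swap 0 1, Equiv.swap 0 2,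
      Equiv.swap 1 2, Equiv.swap 0 1 * Equiv.swap 1 2, Equiv.swap 1 2 * Equiv.swap 0 1} := by
    decide
  rw [h, Finset.sum_insert (by decide), Finset.sum_insert (by decide),
    Finset.sum_insert (by decide), Finset.sum_insert (by decide), Finset.sum_insert (by decide),
    Finset.sum_singleton]
  ring

/-- The three functionals in the sixth roots. -/
def hh : Fin 3 → ℝ → ℝ → ℝ → ℝ := ![h1, h2, h0]

theorem hel_roots {y : Fin 3 → ℝ} (hy : Simp y) (j : Fin 3) :
    hel (expo j) y = hh j (root6 (1 + y 0)) (root6 (1 + y 1)) (root6 (1 + y 2)) := by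
  have hz : ∀ i, 0 ≤ 1 + y i := fun i => by linarith [hy.1 i]
  unfold hel hvec expo
  simp only [rpow_root6 (hz _), Fintype.card_perm, Fintype.card_fin, sum_perm,
    Fin.prod_univ_three]
  fin_cases j <;>
    simp [hh, h1, h2, h0, Equiv.swap_apply_def, Equiv.Perm.mul_apply, Nat.factorial] <;> ring

theorem pair_of_simp {y : Fin 3 → ℝ} (hy : Simp y) :
    Pair (root6 (1 + y 0)) (root6 (1 + y 1)) (root6 (1 + y 2))
      (root6 (1 + -(1 / 2) * y 0)) (root6 (1 + -(1 / 2) * y 1))
      (root6 (1 + -(1 / 2) * y 2)) := by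
  have hs : Simp fun i => -(1 / 2) * y i :=
    lam_smul_simp (q := 3) (by norm_num) (by norm_num) (by norm_num) hy
  have hz : ∀ i, 0 ≤ 1 + y i := fun i => by linarith [hy.1 i]
  have hu : ∀ i, 0 ≤ 1 + -(1 / 2) * y i := fun i => by linarith [hs.1 i]
  have h3 := hy.2
  rw [Fin.sum_univ_three] at h3
  refine ⟨root6_nonneg (hz 0), root6_nonneg (hz 1), root6_nonneg (hz 2), root6_nonneg (hu 0),
    root6_nonneg (hu 1), root6_nonneg (hu 2), ?_, ?_, ?_, ?_⟩
  · rw [root6_pow (hz 0), root6_pow (hz 1), root6_pow (hz 2)]; linarith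
  · rw [root6_pow (hu 0), root6_pow (hz 0)]; ring
  · rw [root6_pow (hu 1), root6_pow (hz 1)]; ring
  · rw [root6_pow (hu 2), root6_pow (hz 2)]; ring

/-- The one-vector facts. -/
theorem pointwise : Pointwise (9 / 5000000) := by
  intro y hy
  have hs : Simp fun i => -(1 / 2) * y i :=
    lam_smul_simp (q := 3) (by norm_num) (by norm_num) (by norm_num) hy
  have hz : ∀ i, 0 ≤ 1 + y i := fun i => by linarith [hy.1 i]
  obtain ⟨g0, g1, g2, g3, g4, g5⟩ := goal (pair_of_simp hy)
  have hp : pp (root6 (1 + y 0)) (root6 (1 + y 1)) (root6 (1 + y 2)) = 3 * chi y := by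
    simp only [pp, chi, root6_pow (hz _), Fin.sum_univ_three]
    push_cast; ring
  simp only [xx, hel_roots hy, hel_roots hs, Fin.sum_univ_three, coef, hh, Matrix.cons_val_zero,
    Matrix.cons_val_one, Matrix.cons_val]
  simp only [gg, ee, hp] at g5
  refine ⟨by linarith, by linarith, by linarith, by linarith, by linarith, ?_⟩
  refine le_trans (le_of_eq ?_) g5
  ring

end Vale.P154.AF4
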