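import Vale.Agent.P154.AF.KronCert

/-!
# Certificates on triangles for four children

The regions: `a ≥ b ≥ c ≥ 0` with `b ≥ 3 a / 10` for the node, and `A ≥ B ≥ C ≥ 0` with
`A ^ 6 ≤ B ^ 6 + C ^ 6` after one edge, covered by triangles at a fixed vertex on the diagonal.
-/

noncomputable section

namespace Vale.P154.AF4

open AF.Hom

/-- An integer vector. -/
abbrev Vec : Type := ℤ × ℤ × ℤ

/-- The linear map with the given columns. -/
def linOf (p q r : Vec) : Lin := ⟨p.1, q.1, r.1, p.2.1, q.2.1, r.2.1, p.2.2, q.2.2, r.2.2⟩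

/-- Nonnegativity on the cone over a triangle. -/
def OnTri (e : E) (p q r : Vec) : Prop :=
  ∀ z u w : ℝ, 0 ≤ z → 0 ≤ u → 0 ≤ w →
    0 ≤ e.val (p.1 * z + q.1 * u + r.1 * w) (p.2.1 * z + q.2.1 * u + r.2.1 * w)
      (p.2.2 * z + q.2.2 * u + r.2.2 * w)

/-- The sum of two vectors. -/
def vadd (p q : Vec) : Vec := (p.1 + q.1, p.2.1 + q.2.1, p.2.2 + q.2.2)

theorem leafK {e : E} {p q r : Vec} (n K : ℕ) (hd : e.deg = some n)
    (h : e.kron (linOf p q r) n K = true) : OnTri e p q r := by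
  intro z u w hz hu hw
  exact e.val_nonneg (linOf p q r) hd (E.nn_of_kron hd h) hz hu hw

theorem splitPQ {e : E} {p q r : Vec} (h1 : OnTri e p (vadd p q) r) (h2 : OnTri e (vadd p q) q r) :
    OnTri e p q r := by
  intro z u w hz hu hw
  rcases le_total u z with h | h
  · refine (h1 (z - u) u w (by linarith) hu hw).trans_eq ?_
    congr 1 <;> simp only [vadd] <;> push_cast <;> ring
  · refine (h2 z (u - z) w hz (by linarith) hw).trans_eq ?_
    congr 1 <;> simp only [vadd] <;> push_cast <;> ring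

theorem splitPW {e : E} {p q r : Vec} (h1 : OnTri e p q (vadd p r)) (h2 : OnTri e (vadd p r) q r) :
    OnTri e p q r := by
  intro z u w hz hu hw
  rcases le_total w z with h | h
  · refine (h1 (z - w) u w (by linarith) hu hw).trans_eq ?_
    congr 1 <;> simp only [vadd] <;> push_cast <;> ring
  · refine (h2 z u (w - z) hz hu (by linarith)).trans_eq ?_
    congr 1 <;> simp only [vadd] <;> push_cast <;> ring

/-- The point `(1000 + x, 1000, 1000 - y)`. -/
def pt (x y : ℤ) : Vec := (1000 + x, 1000, 1000 - y)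

/-- The first six triangles after one edge. -/
structure Fan6 (e : E) : Prop where
  t0 : OnTri e (pt 0 0) (pt 123 0) (pt 87 70)
  t1 : OnTri e (pt 0 0) (pt 87 70) (pt 52 160)
  t2 : OnTri e (pt 0 0) (pt 52 160) (pt 21 300)
  t3 : OnTri e (pt 0 0) (pt 21 300) (pt 4 500)
  t4 : OnTri e (pt 0 0) (pt 4 500) (pt 1 640)

/-- The triangles covering all points after one edge. -/
structure Fan (e : E) : Prop extends Fan6 e where
  t5 : OnTri e (pt 0 0) (pt 1 640) (pt 1 1000)
  t6 : OnTri e (pt 0 0) (pt 1 1000) (pt 0 1000)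

/-- The triangles covering the points with `10 C ≥ 3 B`. -/
structure Fan' (e : E) : Prop extends Fan6 e where
  t5 : OnTri e (pt 0 0) (pt 1 640) (pt 1 700)
  t6 : OnTri e (pt 0 0) (pt 1 700) (pt 0 700)

/-- Bernstein coefficients bound the boundary polynomial from below. -/
theorem edge_pos {A0 A1 C0 C1 w : ℝ} (hw0 : 0 ≤ w) (hw1 : w ≤ 1)
    (k0 : 1000 ^ 6 + C0 ^ 6 + 1 ≤ A0 ^ 6)
    (k1 : 1000 ^ 6 + C0 ^ 5 * C1 + 1 ≤ A0 ^ 5 * A1)
    (k2 : 1000 ^ 6 + C0 ^ 4 * C1 ^ 2 + 1 ≤ A0 ^ 4 * A1 ^ 2)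
    (k3 : 1000 ^ 6 + C0 ^ 3 * C1 ^ 3 + 1 ≤ A0 ^ 3 * A1 ^ 3)
    (k4 : 1000 ^ 6 + C0 ^ 2 * C1 ^ 4 + 1 ≤ A0 ^ 2 * A1 ^ 4)
    (k5 : 1000 ^ 6 + C0 * C1 ^ 5 + 1 ≤ A0 * A1 ^ 5)
    (k6 : 1000 ^ 6 + C1 ^ 6 + 1 ≤ A1 ^ 6) :
    1000 ^ 6 + ((1 - w) * C0 + w * C1) ^ 6 < ((1 - w) * A0 + w * A1) ^ 6 := by
  have h : 0 ≤ 1 - w := by linarith
  have t0 := mul_nonneg (pow_nonneg h 6) (sub_nonneg.2 k0)
  have t1 := mul_nonneg (mul_nonneg (pow_nonneg h 5) hw0) (sub_nonneg.2 k1)
  have t2 := mul_nonneg (mul_nonneg (pow_nonneg h 4) (pow_nonneg hw0 2)) (sub_nonneg.2 k2)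
  have t3 := mul_nonneg (mul_nonneg (pow_nonneg h 3) (pow_nonneg hw0 3)) (sub_nonneg.2 k3)
  have t4 := mul_nonneg (mul_nonneg (pow_nonneg h 2) (pow_nonneg hw0 4)) (sub_nonneg.2 k4)
  have t5 := mul_nonneg (mul_nonneg h (pow_nonneg hw0 5)) (sub_nonneg.2 k5)
  have t6 := mul_nonneg (pow_nonneg hw0 6) (sub_nonneg.2 k6)
  linear_combination t0 + 6 * t1 + 15 * t2 + 20 * t3 + 15 * t4 + 6 * t5 + t6

/-- A point in the sector of a triangle and outside it violates `A ^ 6 ≤ B ^ 6 + C ^ 6`. -/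
theorem in_tri {e : E} {x y x' y' : ℤ} (ht : OnTri e (pt 0 0) (pt x y) (pt x' y'))
    (hD : 0 < x * y' - x' * y) (hx : 0 ≤ x) (hx' : 0 ≤ x') (hy : 0 ≤ y) (hy' : 0 ≤ y')
    {A B C : ℝ} (hB : 0 < B)
    (s1 : (x' : ℝ) * (B - C) ≤ y' * (A - B)) (s2 : (y : ℝ) * (A - B) ≤ x * (B - C))
    (out : ∀ w : ℝ, 0 ≤ w → w ≤ 1 →
      1000 + (1 - w) * x + w * x' ≤ A * 1000 / B →
      C * 1000 / B ≤ 1000 - ((1 - w) * y + w * y') → False) :
    0 ≤ e.val A B C := by
  obtain ⟨D, hDdef⟩ : ∃ D : ℝ, D = (x : ℝ) * y' - x' * y := ⟨_, rfl⟩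
  have hD0 : 0 < D := by rw [hDdef]; exact_mod_cast hD
  set l1 := ((y' : ℝ) * (A - B) - x' * (B - C)) * 1000 / (B * D) with hl1
  set l2 := ((x : ℝ) * (B - C) - y * (A - B)) * 1000 / (B * D) with hl2
  have h1 : 0 ≤ l1 := div_nonneg (mul_nonneg (sub_nonneg.2 s1) (by norm_num)) (by positivity)
  have h2 : 0 ≤ l2 := div_nonneg (mul_nonneg (sub_nonneg.2 s2) (by norm_num)) (by positivity)
  have eA : A * 1000 / B = 1000 + l1 * x + l2 * x' := by
    rw [hl1, hl2]; field_simp; rw [hDdef]; ring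
  have eC : C * 1000 / B = 1000 - (l1 * y + l2 * y') := by
    rw [hl1, hl2]; field_simp; rw [hDdef]; ring
  by_cases hS : l1 + l2 ≤ 1
  · refine (ht (B / 1000 * (1 - l1 - l2)) (B / 1000 * l1) (B / 1000 * l2)
      (mul_nonneg (by positivity) (by linarith)) (mul_nonneg (by positivity) h1)
      (mul_nonneg (by positivity) h2)).trans_eq ?_
    rw [div_eq_iff hB.ne'] at eA eC
    congr 1 <;> simp only [pt] <;> push_cast
    · linear_combination (-1 / 1000) * eA
    · ring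
    · linear_combination (-1 / 1000) * eC
  · exfalso
    push Not at hS
    set w := l2 / (l1 + l2) with hw
    have hw0 : 0 ≤ w := div_nonneg h2 (by linarith)
    have hw1 : w ≤ 1 := (div_le_one (by linarith)).2 (by linarith)
    have key : ∀ p p' : ℝ, 0 ≤ p → 0 ≤ p' → (1 - w) * p + w * p' ≤ l1 * p + l2 * p' := by
      intro p p' hp hp'
      have e : (l1 + l2) * ((1 - w) * p + w * p') = l1 * p + l2 * p' := by
        rw [hw]; field_simp; ring
      rw [← e]
      refine le_mul_of_one_le_left ?_ hS.le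
      exact add_nonneg (mul_nonneg (by linarith) hp) (mul_nonneg hw0 hp')
    refine out w hw0 hw1 ?_ ?_
    · rw [eA]; linarith [key x x' (by exact_mod_cast hx) (by exact_mod_cast hx')]
    · rw [eC]; linarith [key y y' (by exact_mod_cast hy) (by exact_mod_cast hy')]

variable {e : E} {A B C : ℝ}

/-- Points beyond a chord are excluded. -/
theorem out_of_edge {x y x' y' : ℝ} (hC : 0 ≤ C) (hB : 0 < B) (h6 : A ^ 6 ≤ B ^ 6 + C ^ 6)
    (hx : 0 ≤ x) (hx' : 0 ≤ x') {w : ℝ} (hw0 : 0 ≤ w) (hw1 : w ≤ 1)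
    (hA : 1000 + (1 - w) * x + w * x' ≤ A * 1000 / B)
    (hC' : C * 1000 / B ≤ 1000 - ((1 - w) * y + w * y'))
    (hpos : 1000 ^ 6 + ((1 - w) * (1000 - y) + w * (1000 - y')) ^ 6 <
      ((1 - w) * (1000 + x) + w * (1000 + x')) ^ 6) : False := by
  have k1 : ((1 - w) * (1000 + x) + w * (1000 + x')) ^ 6 ≤ (A * 1000 / B) ^ 6 :=
    pow_le_pow_left₀ (add_nonneg (mul_nonneg (by linarith) (by linarith))
      (mul_nonneg hw0 (by linarith))) (by linarith) 6
  have k2 : (C * 1000 / B) ^ 6 ≤ ((1 - w) * (1000 - y) + w * (1000 - y')) ^ 6 :=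
    pow_le_pow_left₀ (by positivity) (by linarith) 6
  have k3 : (A * 1000 / B) ^ 6 ≤ 1000 ^ 6 + (C * 1000 / B) ^ 6 := by
    rw [show (1000 : ℝ) ^ 6 = (B * 1000 / B) ^ 6 by field_simp]
    simp only [div_pow, mul_pow]
    rw [← add_div]
    gcongr
    linarith
  linarith

theorem Fan6.nonneg (hf : Fan6 e) (hC : 0 ≤ C) (hB : 0 < B) (hCB : C ≤ B) (_hBA : B ≤ A)
    (h6 : A ^ 6 ≤ B ^ 6 + C ^ 6) (hsec : B - C ≤ 640 * (A - B)) : 0 ≤ e.val A B C := by
  rcases le_total (87 * (B - C)) (70 * (A - B)) with s | s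
  · exact in_tri hf.t0 (by norm_num) (by norm_num) (by norm_num) (by norm_num) (by norm_num) hB
      (by push_cast; linarith) (by push_cast; linarith) fun w w0 w1 hA hC' => by
        push_cast at hA hC'
        exact out_of_edge hC hB h6 (by norm_num) (by norm_num) w0 w1 hA hC'
          (by refine edge_pos w0 w1 ?_ ?_ ?_ ?_ ?_ ?_ ?_ <;> norm_num)
  rcases le_total (52 * (B - C)) (160 * (A - B)) with s' | s'
  · exact in_tri hf.t1 (by norm_num) (by norm_num) (by norm_num) (by norm_num) (by norm_num) hB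
      (by push_cast; linarith) (by push_cast; linarith) fun w w0 w1 hA hC' => by
        push_cast at hA hC'
        exact out_of_edge hC hB h6 (by norm_num) (by norm_num) w0 w1 hA hC'
          (by refine edge_pos w0 w1 ?_ ?_ ?_ ?_ ?_ ?_ ?_ <;> norm_num)
  rcases le_total (21 * (B - C)) (300 * (A - B)) with s'' | s''
  · exact in_tri hf.t2 (by norm_num) (by norm_num) (by norm_num) (by norm_num) (by norm_num) hB
      (by push_cast; linarith) (by push_cast; linarith) fun w w0 w1 hA hC' => by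
        push_cast at hA hC'
        exact out_of_edge hC hB h6 (by norm_num) (by norm_num) w0 w1 hA hC'
          (by refine edge_pos w0 w1 ?_ ?_ ?_ ?_ ?_ ?_ ?_ <;> norm_num)
  rcases le_total (4 * (B - C)) (500 * (A - B)) with s3 | s3
  · exact in_tri hf.t3 (by norm_num) (by norm_num) (by norm_num) (by norm_num) (by norm_num) hB
      (by push_cast; linarith) (by push_cast; linarith) fun w w0 w1 hA hC' => by
        push_cast at hA hC'
        exact out_of_edge hC hB h6 (by norm_num) (by norm_num) w0 w1 hA hC'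
          (by refine edge_pos w0 w1 ?_ ?_ ?_ ?_ ?_ ?_ ?_ <;> norm_num)
  · exact in_tri hf.t4 (by norm_num) (by norm_num) (by norm_num) (by norm_num) (by norm_num) hB
      (by push_cast; linarith) (by push_cast; linarith) fun w w0 w1 hA hC' => by
        push_cast at hA hC'
        exact out_of_edge hC hB h6 (by norm_num) (by norm_num) w0 w1 hA hC'
          (by refine edge_pos w0 w1 ?_ ?_ ?_ ?_ ?_ ?_ ?_ <;> norm_num)

theorem Fan.nonneg (hf : Fan e) (hC : 0 ≤ C) (hB : 0 < B) (hCB : C ≤ B) (hBA : B ≤ A)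
    (h6 : A ^ 6 ≤ B ^ 6 + C ^ 6) : 0 ≤ e.val A B C := by
  rcases le_total (B - C) (640 * (A - B)) with s | s
  · exact hf.toFan6.nonneg hC hB hCB hBA h6 s
  rcases le_total (B - C) (1000 * (A - B)) with s' | s'
  · exact in_tri hf.t5 (by norm_num) (by norm_num) (by norm_num) (by norm_num) (by norm_num) hB
      (by push_cast; linarith) (by push_cast; linarith) fun w w0 w1 hA hC' => by
        push_cast at hA hC'
        exact out_of_edge hC hB h6 (by norm_num) (by norm_num) w0 w1 hA hC'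
          (by refine edge_pos w0 w1 ?_ ?_ ?_ ?_ ?_ ?_ ?_ <;> norm_num)
  · refine (hf.t6 (C / 1000) ((A - B) : ℝ) ((B - C) / 1000 - (A - B)) (by positivity)
      (by linarith) (by linarith)).trans_eq ?_
    congr 1 <;> simp only [pt] <;> push_cast <;> ring

theorem Fan'.nonneg (hf : Fan' e) (hC : 0 ≤ C) (hB : 0 < B) (hCB : C ≤ B) (hBA : B ≤ A)
    (h6 : A ^ 6 ≤ B ^ 6 + C ^ 6) (hlow : 3 * B ≤ 10 * C) : 0 ≤ e.val A B C := by
  rcases le_total (B - C) (640 * (A - B)) with s | s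
  · exact hf.toFan6.nonneg hC hB hCB hBA h6 s
  rcases le_total (B - C) (700 * (A - B)) with s' | s'
  · exact in_tri hf.t5 (by norm_num) (by norm_num) (by norm_num) (by norm_num) (by norm_num) hB
      (by push_cast; linarith) (by push_cast; linarith) fun w w0 w1 hA hC' => by
        push_cast at hA hC'
        exact out_of_edge hC hB h6 (by norm_num) (by norm_num) w0 w1 hA hC'
          (by refine edge_pos w0 w1 ?_ ?_ ?_ ?_ ?_ ?_ ?_ <;> norm_num)
  · refine (hf.t6 ((B - (B - C) * (10 / 7)) / 1000) (A - B) ((B - C) / 700 - (A - B))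
      (by linarith) (by linarith) (by linarith)).trans_eq ?_
    congr 1 <;> simp only [pt] <;> push_cast <;> ring

end Vale.P154.AF4
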